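import Vale.Agent.P287D.Tg.St
import Vale.Agent.P287D.Pb.Deg
import Vale.Agent.P287D.In.Int
import Vale.Agent.P287D.Va.Dsc

/-!
# P287D, block TG: a function with a single simple pole gives a pencil of the right degree
-/

set_option linter.unusedVariables false

open Set

noncomputable section

namespace Vale.Agent.P287D.Tg

variable {K : Type} [Field K] [Algebra ℂ K] {n : ℕ} {Λ Γ N : BD K}

theorem amp_of (hN : NEG) (hK : FF K (n + 1)) (F : Fano1 n Λ) (T : Term n Λ Γ) :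
    AmpOn Λ (-Γ) := by
  obtain ⟨Γ', T', a⟩ := F.term
  have e : ∀ {a b}, Hull n Λ (cn K (n + 1)) a → Hull n Λ (cn K (n + 1)) b → a ≤ b := fun x y =>
    sub_nonneg.1 (hN.nn n K hK Λ _ T.smp T.big (y.1.sub x.1) fun P k => by
      rw [Pi.sub_apply, x.2 P k, y.2 P k, sub_self]).1
  rwa [le_antisymm (e T.hull T'.hull) (e T'.hull T.hull)]

theorem trans_of_ord {P : Pl K} {f : K} (o : P.ord f ≠ 0) : Transcendental ℂ f := fun h => by
  obtain ⟨c, rfl⟩ : f ∈ (algebraMap ℂ K).range :=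
    minpoly.mem_range_of_degree_eq_one ℂ f
      (IsAlgClosed.degree_eq_one_of_irreducible ℂ (minpoly.irreducible h.isIntegral))
  exact o (P.ord_const c)

open Classical in
theorem pencil (h : In.Hy) (hN : NEG) (hK : FF K (n + 1)) (bΛ : Big Λ) (q : QF n Λ)
    (r1 : rho Λ = 1) (a : AmpOn Λ N) {P : Pl K} {f : K} (on : On n N P) (o : P.ord f = -1)
    (r : ∀ R, R ≠ P → On n N R → 0 ≤ R.ord f) :
    ∃ w : ℝ, Transcendental ℂ f ∧ Eff (w • N - mx {1, f}) ∧
      w * vol (n + 1) N = vol n (res P N) := by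
  have sΛ := a.smp_left
  have io := (hN.iso n K hK Λ N sΛ a.smp a).2.2.1
  obtain ⟨β, -, hβ⟩ := q P ((io P).2 on)
  have cN : ∀ i : Fin n, (fun _ => N) i ∈ Car K := fun _ => a.car
  have vN : vol (n + 1) N = I (n + 1) K (Fin.cons N fun _ : Fin n => N) := by
    unfold vol
    congr 1
    funext i
    refine Fin.cases rfl (fun _ => rfl) i
  have n0 : (⟨_, (mk_mem_Pic sΛ).2 a.dsc⟩ : Pic Λ) ≠ 0 := fun e => by
    have := h.vol_pos hK a.nef (a.big_iff.1 bΛ)
    rw [vN, h.cons_prn hK ((Submodule.Quotient.mk_eq_zero _).1 (congrArg Subtype.val e)) cN] at this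
    exact lt_irrefl _ this
  obtain ⟨w, hw⟩ := (finrank_eq_one_iff_of_nonzero' _ n0).1 r1 ⟨_, (mk_mem_Pic sΛ).2 hβ.1⟩
  have pw : w • N - β ∈ Prn K := by
    rw [← Submodule.Quotient.eq]
    exact congrArg Subtype.val hw
  have le : mx {1, f} ≤ β := by
    obtain ⟨c, -, hc⟩ := hβ.1.neg.exists_add
    refine sub_nonpos.1 (hN.neg n K hK Λ _ c sΛ bΛ (sub_mem (mx_mem_Car _) hβ.1.car) ?_
      fun R k => ?_)
    · have := ((smp_mx {1, f}).add (hc c le_rfl)).nef
      rwa [← add_assoc, ← sub_eq_add_neg] at this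
    · rw [Pi.sub_apply, hβ.2 R k, mx_one_pair, sub_nonpos]
      change (0 : ℝ) ⊔ -(R.ord f : ℝ) ≤ _
      by_cases e : R = P
      · subst e
        rw [o, Pl.δ_self]
        norm_num
      · have : (0 : ℝ) ≤ R.ord f := by exact_mod_cast r R e ((io R).1 k)
        rw [Pl.δ_ne e]
        exact sup_le le_rfl (by linarith)
  refine ⟨w, trans_of_ord (P := P) (by omega), (Eff.of_nonneg (sub_nonneg.2 le)).congr ?_, ?_⟩
  · rwa [sub_sub_sub_cancel_right]
  · rw [vN, ← In.cons_smul, h.cons_congr hK (h.isb n K hK _ hβ.1.car) pw cN,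
      ← h.cf_hull hK sΛ (fun _ => a.dsc) hβ]
    rfl

/-- **PEN**: a moving prime divisor gives a function with a single simple pole -/
def PEN : Prop := ∀ n : ℕ, ForH fun K K' _ _ _ _ φ => ∀ (N : BD K) (P : Pl K'), FF K (n + 1) →
  FF K' (n + 1) → Smp N → Big N → Klt (n + 1) (-N) → Bdy n N (-N) → Ext ⊥ φ → Trv φ P →
  On n (pb φ N) P → ∃ (P₀ : Pl K) (f : K), On n N P₀ ∧
    vol n (res P₀ N) = vol n (res P (pb φ N)) ∧ P₀.ord f = -1 ∧
    ∀ R, R ≠ P₀ → On n N R → 0 ≤ R.ord f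

theorem can_of (hN : NEG) (hK : FF K (n + 1)) (T : Term n Λ Γ) (a : AmpOn Λ (-Γ)) : Can n Γ :=
  have io := (hN.iso n K hK Λ _ T.smp a.smp a).2.2.1
  have z : ∀ P, On n Λ P → dsc (n + 1) Γ P = 0 := fun P k => sub_eq_zero.2 (T.hull.2 P k).symm
  ⟨hK, a.smp, a.big_iff.1 T.big, fun P => (em (On n Λ P)).elim (fun k => (z P k).ge)
    fun k => (T.pos P k).le, fun P k => (z P ((io P).2 k)).le⟩

theorem dich_of (h : In.Hy) (hN : NEG) (d : DI0) (p : PEN) : Sc.DICH := by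
  obtain ⟨v, d⟩ := d
  refine ⟨v, fun K _ _ hK Λ Γ F T => ?_⟩
  have a := amp_of hN hK F T
  have c := can_of hN hK T a
  refine (d K Γ c).imp_right fun ⟨K', _, _, φ, G', P, u, t, on, le⟩ => ?_
  obtain ⟨g, -, e⟩ := u.eq
  have hK' := u.can'.ff
  have cp := (u.ext.ok hK').car a.car
  have ev : vol 3 (res P (-G')) = vol 3 (res P (pb φ (-Γ))) :=
    Pb.I_congr h (h.rsd 3 K' hK' P) (fun _ => (h.res_smp hK' P ((u.ext.ok hK').smp a.smp)).car)
      fun _ => by
        rw [← h.res_sub hK' P u.can'.smp.car cp]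
        refine h.res_prn hK' P ?_
        rw [e, pb_neg, neg_sub_neg, sub_sub_cancel]
        exact dv_mem_Prn g
  obtain ⟨P₀, f, on₀, k₀, o, r⟩ := p 3 K K' φ (-Γ) P hK hK' c.smp c.big
    (fun Q => by rw [neg_neg]; exact neg_one_lt_zero.trans_le (c.nn Q))
    (by rw [neg_neg]; exact c.bdy) u.ext t (lt_of_lt_of_eq on ev)
  obtain ⟨w, t, e, k⟩ := pencil h hN hK T.big F.qf F.rho a on₀ o r
  exact ⟨f, w, t, e, by rw [k, k₀, ← ev]; exact le⟩

end Vale.Agent.P287D.Tg
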