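import Vale.Agent.P287D.Tg.St
import Vale.Agent.P287D.Gf.Xi
import Vale.Agent.P287D.Gm.Tr
import Vale.Agent.P287D.Gm.Pt
import Vale.Agent.P287D.Ba.Mod
import Vale.Agent.P287D.Va.Alg
import Vale.Agent.P287D.Iso.Int

/-!
# P287D, block TG: extensions of the constants
-/

open Set

noncomputable section

namespace Vale.Agent.P287D

variable {n : ℕ} {K K' K'' : Type} [Field K] [Algebra ℂ K] [Field K'] [Algebra ℂ K'] [Field K'']
  [Algebra ℂ K''] {φ : K →+* K'} {G : BD K} {G' : BD K'}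

theorem ext_id : Ext ⊥ (RingHom.id K) :=
  ⟨fun _ h => IntermediateField.mem_bot.1 h,
    eq_top_iff.2 fun x _ => Subfield.subset_closure (.inl ⟨x, rfl⟩),
    fun _ _ h => h.restrict_scalars' ℂ⟩

theorem Ext.comp {L : IntermediateField ℂ K} {ψ : K' →+* K''} (h' : Ext ⊥ ψ) (h : Ext L φ) :
    Ext L (ψ.comp φ) := by
  have c : ∀ x ∈ range (algebraMap ℂ K'), ψ x ∈ range (algebraMap ℂ K'') := fun x hx =>
    h'.cst x (IntermediateField.mem_bot.2 hx)
  refine ⟨fun a ha => c _ (h.cst a ha), eq_top_iff.2 (h'.gen.ge.trans (Subfield.closure_le.2 ?_)),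
    fun m v hv => Gm.dis_bot h' (h.dis m v hv)⟩
  rintro _ (⟨x, rfl⟩ | hx)
  · refine Subfield.mem_comap.1 (Subfield.closure_le.2 ?_ (h.gen.ge (Subfield.mem_top x)))
    rintro _ (⟨f, rfl⟩ | hy)
    exacts [Subfield.subset_closure (.inl ⟨f, rfl⟩), Subfield.subset_closure (.inr (c _ hy))]
  · exact Subfield.subset_closure (.inr hx)

/-- an extension of the constants is an isomorphism on finitely many Cartier b-divisors -/
theorem Ext.iso (h : Ext ⊥ φ) (hK : FF K n) (hK' : FF K' n) {ι : Type} [Finite ι] {β : ι → BD K}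
    (hβ : ∀ i, β i ∈ Car K) (T : Finset K) :
    ∃ θ : K →+* K', Semi θ ∧ (∀ f ∈ T, θ f = φ f) ∧ ∀ i, pb θ (β i) = pb φ (β i) := by
  simpa only [pb_id, RingHom.id_apply] using h.xc ext_id hK (h.ok hK') Ok.id hβ T

/-- the place above a given place -/
theorem Ext.up (h : Ext ⊥ φ) (hK : FF K (n + 1)) (hK' : FF K' (n + 1)) {f : K'}
    (t : Tr n n φ 0 (fun _ => True) f) (Q : Pl K) : ∃ P, Lies φ P Q ∧ P.ord (φ Q.t) = 1 ∧
      (cn K' (n + 1) + dv f) P = cn K (n + 1) Q := by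
  obtain ⟨s, Γ, a, -, o, -, -, b⟩ := Ba.mod.ex n K hK {Q} ∅ (finite_singleton _) finite_empty
    (empty_subset _)
  have o := o Q rfl
  obtain ⟨β, c, b⟩ := b Q o
  obtain ⟨θ, i, -, e⟩ := h.iso hK hK' (β := ![mx s, β])
    (Fin.forall_fin_two.2 ⟨mx_mem_Car s, CarZ.car c⟩) ∅
  have v : pb φ β (i.pl Q) = 1 :=
    (congrFun (e 1) _).symm.trans ((i.pb_pl β Q).trans ((b.2 Q o).trans Q.δ_self))
  rcases t.on _ a.smp a.big trivial (i.pl Q) ((congrArg (On n · _) (e 0)).mp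
    ((i.on_pl In.hy hK).2 o)) with ⟨x, -⟩ | ⟨R, l, r, x, y⟩
  · rw [Trv.pb x] at v
    exact absurd v zero_ne_one
  · rw [l.pb, x, Int.cast_one, one_mul, b.2 R r] at v
    obtain rfl : R = Q := by_contra fun k => zero_ne_one ((Pl.δ_ne k).symm.trans v)
    exact ⟨_, l, x, by simpa only [pb_zero, sub_zero] using y⟩

namespace Tg

theorem Can.eq (c : Can n G) {P : Pl K} (o : On n (-G) P) : G P = cn K (n + 1) P :=
  (sub_eq_zero.1 (le_antisymm (c.bdy P o) (c.nn P))).symm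

/-- the canonical divisor is determined by its class -/
theorem Can.uniq {H : BD K} (c : Can n G) (d : Can n H) (e : H - G ∈ Prn K) : H = G :=
  sub_eq_zero.1 (Pr.hart_eq res' c.ff c.smp c.big (.of_prn c.smp e) (.zero c.smp) fun P o => by
    rw [Pi.sub_apply, c.eq o, d.eq ((Pr.on_iff res' c.ff c.smp (c.smp.ampOn_congr
      (by rw [neg_sub_neg]; simpa using neg_mem e))).1 o), sub_self, Pi.zero_apply])

theorem up_of (c : Can n G) (h : Ext ⊥ φ) (hK' : FF K' (n + 1)) {f : K'}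
    (t : Tr n n φ 0 (fun _ => True) f) : Up n φ G (pb φ G - dv f) := by
  have ok := h.ok hK'
  have p : -(pb φ G - dv f) - pb φ (-G) ∈ Prn K' := by
    rw [pb_neg, neg_sub, sub_neg_eq_add, sub_add_cancel]
    exact dv_mem_Prn f
  have s := ok.smp c.smp
  refine ⟨h, c, ⟨hK', s.congr p, (Gm.big_pb ok h.gen c.big).congr p, fun P => ?_, fun P o => ?_⟩,
    f, t.ne, rfl⟩
  · rcases ok P with x | ⟨Q, l⟩
    · have := t.triv P x
      simp only [dsc, Pi.add_apply, Pi.sub_apply, Pi.zero_apply, x.pb] at this ⊢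
      linarith
    · have a := t.ge P Q l
      have b := c.nn Q
      have e : (1 : ℝ) ≤ P.ord (φ Q.t) := by exact_mod_cast l.e_pos
      simp only [dsc, Pi.add_apply, Pi.sub_apply, Pi.zero_apply, l.pb, mul_zero] at a b ⊢
      nlinarith
  · rcases t.on _ c.smp c.big trivial P ((Pr.on_iff res' hK' s (s.ampOn_congr p)).2 o) with
      ⟨x, y⟩ | ⟨Q, l, r, x, y⟩
    · simp only [dsc, Pi.add_apply, Pi.sub_apply, Trv.pb x] at y ⊢
      linarith
    · simp only [dsc, Pi.add_apply, Pi.sub_apply, Pi.zero_apply, l.pb, x, c.eq r] at y ⊢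
      push_cast at y ⊢
      linarith

theorem Up.tr (u : Up n φ G G') {f : K'} (t : Tr n n φ 0 (fun _ => True) f) :
    G' = pb φ G - dv f := by
  refine (up_of u.can u.ext u.can'.ff t).can'.uniq u.can' ?_
  obtain ⟨g, -, rfl⟩ := u.eq
  simpa using sub_mem (dv_mem_Prn f) (dv_mem_Prn g)

theorem exists_tr (h : Ext ⊥ φ) (hK : FF K (n + 1)) (hK' : FF K' (n + 1)) :
    ∃ f, Tr n n φ 0 (fun _ => True) f :=
  let ⟨f, _, _, _, t⟩ := Gm.tr_bot res' balg h hK hK'; ⟨f, t⟩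

/-- **UPX** -/
theorem upx : UPX := fun _ _ _ _ _ _ _ _ _ c h k =>
  (exists_tr h c.ff k).imp fun _ t => ⟨t, up_of c h k t⟩

/-- **UPV** -/
theorem upv : UPV := by
  intro n K K' _ _ _ _ φ G G' u
  obtain ⟨f, t⟩ := exists_tr u.ext u.can.ff u.can'.ff
  obtain ⟨θ, i, -, e⟩ := u.ext.iso u.can.ff u.can'.ff (β := fun _ : Unit => -G)
    (fun _ => u.can.smp.car) ∅
  refine ⟨?_, fun Q => ?_⟩
  · rw [← i.vol In.hy u.can.ff]
    refine Iso.I_congr (In.hy.row _ _ u.can'.ff) (fun _ => i.ok.car u.can.smp.car) fun _ => ?_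
    rw [e (), u.tr t, pb_neg, neg_sub, sub_neg_eq_add, sub_add_cancel]
    exact dv_mem_Prn f
  · obtain ⟨P, l, x, y⟩ := u.ext.up u.can.ff u.can'.ff t Q
    refine ⟨P, l, fun D => ?_⟩
    simp only [u.tr t, dsc, Pi.add_apply, Pi.sub_apply, l.pb, x] at y ⊢
    push_cast
    linarith

/-- **UPC** -/
theorem upc : UPC := by
  intro n K K' _ _ _ _ φ G G' u K'' _ _ ψ G'' u'
  obtain ⟨f, f0, e⟩ := u.eq
  obtain ⟨g, g0, e'⟩ := u'.eq
  have ok := u'.ext.ok u'.can'.ff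
  have f1 := (map_ne_zero ψ).2 f0
  exact ⟨u'.ext.comp u.ext, u.can, u'.can', ψ f * g, mul_ne_zero f1 g0, by
    rw [e', e, pb_sub, ok.pb_dv, ok.pb_comp, dv_mul f1 g0, sub_sub]⟩

end Tg

end Vale.Agent.P287D
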