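import Vale.Agent.P287D.Sc.St
import Vale.Agent.P287D.Ku.St
import Vale.Agent.P287D.Pb.Bas

/-!
# P287D, block TG: the volume of canonical Fano varieties (definitions and statements)
-/

set_option linter.unusedVariables false

open Set

noncomputable section

namespace Vale.Agent.P287D.Tg

section defs

variable {K K' : Type} [Field K] [Algebra ℂ K] [Field K'] [Algebra ℂ K']

/-- `V (-G)` is a canonical Fano variety with the canonical divisor `G` -/
structure Can (n : ℕ) (G : BD K) : Prop where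
  ff : FF K (n + 1)
  smp : Smp (-G)
  big : Big (-G)
  nn : 0 ≤ dsc (n + 1) G
  bdy : Bdy n (-G) G

/-- `G'` is the extension of the constants of `G` -/
structure Up (n : ℕ) (φ : K →+* K') (G : BD K) (G' : BD K') : Prop where
  ext : Ext ⊥ φ
  can : Can n G
  can' : Can n G'
  eq : ∃ f : K', f ≠ 0 ∧ G' = pb φ G - dv f

/-- a tiger: `P` is the only log canonical place of `G + Δ` through its centre -/
structure Lo (n : ℕ) (G Δ : BD K) (ε : ℝ) (P : Pl K) : Prop where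
  can : Can n G
  e0 : 0 < ε
  e1 : ε < 1
  car : Δ ∈ Car K
  nn : 0 ≤ Δ
  smp : Smp (ε • -G - Δ)
  big : Big (res P (ε • -G - Δ))
  lc : dsc (n + 1) (G + Δ) P = -1
  plt : ∀ Q, Q ≠ P → CLe (-G) P Q → -1 < dsc (n + 1) (G + Δ) Q

/-- the function field of the centre -/
abbrev Cf (G : BD K) (P : Pl K) : IntermediateField ℂ P.κ := fld (res P (-G))

/-- `h` is the polarisation of the centre -/
structure Po (G : BD K) (P : Pl K) (h : BD (Cf G P)) : Prop where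
  smp : Smp h
  big : Big h
  prn : res P (-G) - pb (inc (Cf G P)) h ∈ Prn P.κ

/-- `Z` is a member of `-(1 - ε) h - K` above the discriminant of `Γ` -/
structure Zd (n k : ℕ) (L : IntermediateField ℂ K) (Γ : BD K) (ε : ℝ) (h Z : BD L) : Prop where
  prn : Z - (-((1 - ε) • h) - cn L k) ∈ Prn L
  ge : ∀ w v, Lies (inc L) w v →
    w.ord (inc L v.t) - (1 + dsc n Γ w) ≤ w.ord (inc L v.t) * Z v

end defs

/-- a statement for all tigers -/
def ForT (A : ∀ (n : ℕ) (K : Type) [Field K] [Algebra ℂ K] (G Δ : BD K) (ε : ℝ) (P : Pl K), Prop) :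
    Prop :=
  ∀ (n : ℕ) (K : Type) [Field K] [Algebra ℂ K] (G Δ : BD K) (ε : ℝ) (P : Pl K), Lo n G Δ ε P →
    A n K G Δ ε P

/-- a statement for all extensions of the constants -/
def ForU (A : ∀ (n : ℕ) (K K' : Type) [Field K] [Algebra ℂ K] [Field K'] [Algebra ℂ K']
    (φ : K →+* K') (G : BD K) (G' : BD K'), Prop) : Prop :=
  ∀ (n : ℕ) (K K' : Type) [Field K] [Algebra ℂ K] [Field K'] [Algebra ℂ K'] (φ : K →+* K')
    (G : BD K) (G' : BD K'), Up n φ G G' → A n K K' φ G G'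

/-- **UPX**: the extension exists -/
def UPX : Prop := ∀ n : ℕ, ForH fun K K' _ _ _ _ φ => ∀ G : BD K, Can n G → Ext ⊥ φ →
  FF K' (n + 1) → ∃ f, Tr n n φ 0 (fun _ => True) f ∧ Up n φ G (pb φ G - dv f)

/-- **UPV**: the volume and the discrepancies do not change -/
def UPV : Prop := ForU fun n K _ _ _ _ _ φ G G' => vol (n + 1) (-G') = vol (n + 1) (-G) ∧
  ∀ R₀ : Pl K, ∃ R, Lies φ R R₀ ∧ ∀ D : BD K,
    dsc (n + 1) (G' + pb φ D) R = dsc (n + 1) (G + D) R₀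

/-- **UPC**: two extensions -/
def UPC : Prop := ForU fun n _ K' _ _ _ _ φ G G' => ∀ (K'' : Type) [Field K''] [Algebra ℂ K'']
  (ψ : K' →+* K'') (G'' : BD K''), Up n ψ G' G'' → Up n (ψ.comp φ) G G''

/-- **T1**: a large volume gives a tiger at the generic point -/
def T1 : Prop := ∀ (n : ℕ) (ε : ℝ), 0 < ε → ε < 1 → ∃ v : ℝ, ∀ (K : Type) [Field K] [Algebra ℂ K]
  (G : BD K), Can n G → v < vol (n + 1) (-G) →
  ∃ (K' : Type) (_ : Field K') (_ : Algebra ℂ K') (φ : K →+* K') (G' Δ : BD K') (P : Pl K'),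
    Up n φ G G' ∧ Lo n G' Δ ε P ∧ Trv φ P

/-- **T2**: a generic tiger which is a divisor of large volume can be cut -/
def T2 : Prop := ∀ ε : ℝ, 0 < ε → 2 * ε < 1 → ∃ v : ℝ, ∀ (K K' : Type) [Field K] [Algebra ℂ K]
  [Field K'] [Algebra ℂ K'] (φ : K →+* K') (G : BD K) (G' Δ : BD K') (P : Pl K'), Up 3 φ G G' →
  Lo 3 G' Δ ε P → Trv φ P → On 3 (-G') P → v < vol 3 (res P (-G')) →
  ∃ (K'' : Type) (_ : Field K'') (_ : Algebra ℂ K'') (ψ : K →+* K'') (G'' Δ' : BD K'')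
    (P' : Pl K''), Up 3 ψ G G'' ∧ Lo 3 G'' Δ' (2 * ε) P' ∧ Trv ψ P' ∧ ¬ On 3 (-G'') P'

/-- **ADD**: a divisor defined over the small field does not meet a generic centre -/
def ADD : Prop := ForU fun n K K' _ _ _ _ φ G G' => ∀ (Δ : BD K') (ε ε' : ℝ) (P : Pl K')
  (D : BD K), Lo n G' Δ ε P → Trv φ P → D ∈ Car K → 0 ≤ D → Smp (ε' • -G - D) → 0 < ε' →
  ε + ε' < 1 → Lo n G' (Δ + pb φ D) (ε + ε') P

/-- **ONE**: if the adjoint pair is klt then there is no other place which is not klt -/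
def ONE : Prop := ForT fun n _ _ _ G Δ _ P => Klt n (adj n P (G + Δ)) →
  ∀ R, R ≠ P → -1 < dsc (n + 1) (G + Δ) R

/-- **HOR**: the adjoint pair is klt over the generic point of the centre -/
def HOR : Prop := ForT fun n _ _ _ G Δ _ P => ∀ w, Hor (Cf G P) w →
  -1 < dsc n (adj n P (G + Δ)) w

/-- **RK1**: rank one over the centre -/
def RK1 : Prop := ForT fun n _ _ _ G Δ _ P => ∀ u : P.κ,
  (∀ w, Hor (Cf G P) w → Aj n (adj n P (G + Δ)) w u) → u ∈ Cf G P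

/-- **TV**: the discriminant is effective on the normalisation of the centre -/
def TV : Prop := ForT fun n _ _ _ G Δ _ P => ∀ (k : ℕ) (h : BD (Cf G P)) (v : Pl (Cf G P)),
  FF (Cf G P) (k + 1) → Po G P h → On k h v → ∃ w, Lies (inc (Cf G P)) w v ∧
    dsc n (adj n P (G + Δ)) w + 1 ≤ w.ord (inc (Cf G P) v.t)

/-- **MOV**: a generic centre moves -/
def MOV : Prop := ForU fun _ _ K' _ _ _ _ φ _ G' => ∀ (P : Pl K') (k : ℕ) (h : BD (Cf G' P)),
  Trv φ P → FF (Cf G' P) k → Po G' P h → Eff (cn (Cf G' P) k + h)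

/-- **SB0**: adjunction, the centre is a divisor -/
def SB0 : Prop := ForT fun n _ _ _ G Δ ε P => ∀ h : BD (Cf G P), FF (Cf G P) n → Po G P h →
  ∃ Z, Zd n n (Cf G P) (adj n P (G + Δ)) ε h Z

/-- **SB1**: subadjunction, the centre has codimension two -/
def SB1 : Prop := ForT fun n _ _ _ G Δ ε P => ∀ (k : ℕ) (h : BD (Cf G P)), n = k + 1 →
  FF (Cf G P) k → Po G P h → ∃ Z, Zd n k (Cf G P) (adj n P (G + Δ)) ε h Z

/-- **K1**: the centre is a curve -/
def K1 : Prop := ForT fun n _ _ _ G Δ ε P => ∀ h : BD (Cf G P), 2 * ε < 1 → FF (Cf G P) 1 →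
  Po G P h → Eff (cn (Cf G P) 1 + h) → Klt n (adj n P (G + Δ))

/-- **SL**: the surface lemma -/
def SL : Prop := ∃ ε₀ : ℝ, 0 < ε₀ ∧ ∀ (L : Type) [Field L] [Algebra ℂ L] (h Z : BD L) (ε : ℝ),
  FF L 2 → Smp h → Big h → Eff (cn L 2 + h) → 0 < ε → ε ≤ ε₀ →
  Z - (-((1 - ε) • h) - cn L 2) ∈ Prn L → (∀ v, On 1 h v → 0 ≤ Z v) → ∀ v, Z v < 1

/-- **KLT**: generic centres of dimension at most two -/
def KLT : Prop := ∃ ε₀ : ℝ, 0 < ε₀ ∧ ForU fun n _ K' _ _ _ _ φ _ G' => ∀ (Δ : BD K') (ε : ℝ)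
  (P : Pl K'), n ≤ 3 → Lo n G' Δ ε P → Trv φ P → ε ≤ ε₀ → cd (-G') P ≤ 2 →
  Klt n (adj n P (G' + Δ))

/-- **VB**: the volume is bounded -/
def VB (n : ℕ) : Prop := ∃ v : ℝ, ∀ (K : Type) [Field K] [Algebra ℂ K] (G : BD K), Can n G →
  vol (n + 1) (-G) ≤ v

/-- **DI0**: in dimension four the volume is bounded or a divisor of bounded volume moves -/
def DI0 : Prop := ∃ v : ℝ, ∀ (K : Type) [Field K] [Algebra ℂ K] (G : BD K), Can 3 G →
  vol 4 (-G) ≤ v ∨ ∃ (K' : Type) (_ : Field K') (_ : Algebra ℂ K') (φ : K →+* K') (G' : BD K')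
    (P : Pl K'), Up 3 φ G G' ∧ Trv φ P ∧ On 3 (-G') P ∧ vol 3 (res P (-G')) ≤ v

/-- two tigers are impossible -/
theorem core (upv : UPV) (add : ADD) (one : ONE) (klt : KLT) : ∃ ε₀ : ℝ, 0 < ε₀ ∧ ε₀ < 1 ∧
    ForU fun n K K' _ _ _ _ φ G G' => ∀ (D : BD K) (ε' : ℝ) (R₀ : Pl K) (Δ : BD K') (ε : ℝ)
      (P : Pl K'), n ≤ 3 → Lo n G D ε' R₀ → Lo n G' Δ ε P → Trv φ P → ε + ε' ≤ ε₀ →
      ¬ cd (-G') P ≤ 2 := by
  obtain ⟨e, e0, klt⟩ := klt
  refine ⟨min e (1 / 2), lt_min e0 one_half_pos, (min_le_right _ _).trans_lt one_half_lt_one,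
    fun n K K' _ _ _ _ φ G G' u D ε' R₀ Δ ε P hn l₀ l t he hc => ?_⟩
  have l' := add n K K' φ G G' u Δ ε ε' P D l t l₀.car l₀.nn l₀.smp l₀.e0
    (he.trans_lt ((min_le_right _ _).trans_lt one_half_lt_one))
  obtain ⟨R, a, b⟩ := (upv n K K' φ G G' u).2 R₀
  have k := one n K' G' _ _ P l' (klt n K K' φ G G' u _ _ P hn l' t (he.trans (min_le_left _ _)) hc)
    R (by
      rintro rfl
      exact a.not_trv t)
  have c := b D
  have := l.nn R
  simp only [dsc, Pi.add_apply, Pi.sub_apply, Pi.zero_apply] at k c this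
  have := l₀.lc
  simp only [dsc, Pi.add_apply, Pi.sub_apply] at this
  linarith

end Vale.Agent.P287D.Tg
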