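import Vale.Agent.P287D.Tg.St
import Vale.Agent.P287D.Ku.Ex
import Vale.Agent.P287D.Va.Des
import Vale.Agent.P287D.Ad.Main
import Vale.Agent.P287D.Ba.Res
import Vale.Agent.P287D.Pb.Abh

/-!
# P287D, block TG: the rows ADD, ONE, HOR
-/

open Set

noncomputable section

namespace Vale.Agent.P287D.Tg

variable {n : ℕ} {K K' : Type} [Field K] [Algebra ℂ K] [Field K'] [Algebra ℂ K'] {φ : K →+* K'}
  {G Δ D : BD K} {G' : BD K'} {ε : ℝ} {P : Pl K}

theorem Lo.gcar (h : Lo n G Δ ε P) : G ∈ Car K := neg_mem_iff.1 h.can.smp.car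

theorem Lo.ccar (h : Lo n G Δ ε P) : G + Δ ∈ Car K := add_mem h.gcar h.car

theorem Lo.neg_eq (G Δ : BD K) (ε : ℝ) : -(G + Δ) = (1 - ε) • -G + (ε • -G - Δ) := by module

theorem Lo.nsmp (h : Lo n G Δ ε P) : Smp (-(G + Δ)) :=
  Lo.neg_eq G Δ ε ▸ (h.can.smp.smul (sub_pos.2 h.e1).le).add h.smp

theorem Lo.nbig (h : Lo n G Δ ε P) : Big (-(G + Δ)) :=
  Lo.neg_eq G Δ ε ▸ (h.can.big.smul (sub_pos.2 h.e1)).add_smp h.smp

theorem Lo.bdy (h : Lo n G Δ ε P) : Bdy n (-G) (G + Δ) := fun Q hQ => by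
  have a := h.can.bdy Q hQ
  have b := h.nn Q
  simp only [dsc, Pi.add_apply, Pi.sub_apply, Pi.zero_apply] at a b ⊢
  linarith

theorem Up.ok (h : Up n φ G G') : Ok φ := h.ext.ok h.can'.ff

theorem Up.prn (h : Up n φ G G') : -G' - pb φ (-G) ∈ Prn K' := by
  obtain ⟨f, -, rfl⟩ := h.eq
  rw [pb_neg, show -(pb φ G - dv f) - -pb φ G = dv f by abel]
  exact dv_mem_Prn f

theorem Up.sub_prn (h : Up n φ G G') (c : ℝ) (D : BD K) :
    c • -G' - pb φ D - pb φ (c • -G - D) ∈ Prn K' := by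
  rw [pb_sub, pb_smul, sub_sub_sub_cancel_right, ← smul_sub]
  exact Submodule.smul_mem _ c h.prn

theorem add : ADD := fun n K K' _ _ _ _ φ G G' u Δ ε ε' P D l t hD D0 s e0 e1 => by
  have s' : Smp (ε' • -G' - pb φ D) := (u.ok.smp s).congr (u.sub_prn ε' D)
  have e : (ε + ε') • -G' - (Δ + pb φ D) = ε • -G' - Δ + (ε' • -G' - pb φ D) := by module
  have z : ∀ Q, CLe (-G') P Q → pb φ D Q = 0 := fun Q c => by
    obtain ⟨M, m⟩ := s.eff
    have r := ((u.ok.rep ((Rep.refl D0).add m)).smul (inv_pos.2 e0).le).congr (γ := -G') (by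
      rw [add_sub_cancel, pb_smul, inv_smul_smul₀ e0.ne']
      exact u.prn)
    refine le_antisymm (not_lt.1 fun k => ?_) (pb_nonneg φ D0 Q)
    have := c _ r (by
      rw [pb_add]
      exact mul_pos (inv_pos.2 e0) (add_pos_of_pos_of_nonneg k (pb_nonneg φ m.nonneg Q)))
    rw [Pi.smul_apply, t.pb, smul_zero] at this
    exact lt_irrefl _ this
  have d : ∀ Q, CLe (-G') P Q → dsc (n + 1) (G' + (Δ + pb φ D)) Q = dsc (n + 1) (G' + Δ) Q :=
    fun Q c => by simp only [dsc, Pi.add_apply, Pi.sub_apply, z Q c, add_zero]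
  refine ⟨l.can, add_pos l.e0 e0, e1, add_mem l.car (u.ok.car hD),
    add_nonneg l.nn (pb_nonneg φ D0), e ▸ l.smp.add s', ?_,
    (d P fun _ _ k => k).trans l.lc, fun Q a c => (d Q c).symm ▸ l.plt Q a c⟩
  rw [e, res_add l.can.ff P l.smp.car s'.car]
  exact l.big.add_smp (res_smp l.can.ff P s')

theorem one : ONE := fun n K _ _ G Δ ε P l k R hR => by
  obtain ⟨f, f1, f2, f3⟩ := Ku.uext n K l.can.ff P (G + Δ) 1 l.nsmp.nef l.nbig l.lc
    fun Q => .inr (by simpa using k Q)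
  have f0 : f ≠ 0 := by
    rintro rfl
    exact zero_ne_one ((by simpa using Bm.rd_const P 0 : P.rd 0 = 0).symm.trans f2)
  have z := Ku.rk1_of Ku.hrt l.can.ff l.can.smp l.can.big l.bdy f f0 fun Q => by
    by_cases e : Q = P
    · exact .inl (e ▸ P297Z.Pl.ord_nonneg_of_mem _ f1)
    · exact .inr (f3 Q e)
  have := (f3 R hR).resolve_left f0
  rwa [← dv_apply, z, Pi.zero_apply, add_zero] at this

theorem hor : HOR := fun n K _ _ G Δ ε P l w hw => by
  obtain ⟨R, a, -, -, b, c⟩ := a2 n K l.can.ff P w {G + Δ} (-G) 0 (finite_singleton _)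
    (singleton_subset_iff.2 l.ccar) l.can.smp.car
  have d := c _ rfl
  rw [l.lc, neg_add_cancel, zero_mul, add_zero] at d
  refine d ▸ l.plt R a.1 fun H r k => (r.nonneg P).lt_of_ne fun e => k.not_ge ?_
  exact (b H r e.symm).1.trans ((res_rep l.can.ff P l.can.smp.car r e.symm).hor
    (Bm.ff_κ l.can.ff P) (res_smp l.can.ff P l.can.smp) hw).le

end Vale.Agent.P287D.Tg
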