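import Vale.Agent.P287D.Tg.Add
import Vale.Agent.P287D.Wp.One
import Vale.Agent.P287D.Ba.Hy

/-!
# P287D, block TG: the row K1
-/

open Set

noncomputable section

namespace Vale.Agent.P287D.Tg

variable {n : ℕ} {K : Type} [Field K] [Algebra ℂ K] {G Δ : BD K} {ε : ℝ} {P : Pl K}

/-- the nef part of the adjoint pair -/
theorem Lo.adj_prn (l : Lo n G Δ ε P) {h : BD (Cf G P)} (p : Po G P h) :
    pb (inc (Cf G P)) (-((1 - ε) • h)) - adj n P (G + Δ) - res P (ε • -G - Δ) ∈ Prn P.κ := by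
  have a := (a1 n K l.can.ff P _ l.ccar).2.1
  have b : -res P (G + Δ) = (1 - ε) • res P (-G) + res P (ε • -G - Δ) := by
    rw [← res_neg l.can.ff P l.ccar, Lo.neg_eq G Δ ε, res_add l.can.ff P
      (Submodule.smul_mem _ _ l.can.smp.car) l.smp.car, res_smul l.can.ff P _ l.can.smp.car]
  have := sub_mem (Submodule.smul_mem _ (1 - ε) p.prn) a
  rw [← neg_neg (res P (G + Δ)), b] at this
  rw [pb_neg, pb_smul]
  exact (congrArg (· ∈ Prn P.κ) (by module)).mp this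

theorem k1_of (rk : RK1) (tv : TV) : K1 := fun n K _ _ G Δ ε P l h e2 hL p ef w => by
  by_contra! c
  have hk := Bm.ff_κ l.can.ff P
  obtain ⟨m, rfl⟩ := Ba.ff_succ hk w
  obtain t | ⟨q, t⟩ := hk.ok_sub (Cf G P) w
  · exact c.not_gt (hor _ K G Δ ε P l w (Wp.hor_iff.2 t))
  have hc := p.smp.car
  have dc : q.δ ∈ Car _ := CarZ.car (Cv.δ_carZ hL q)
  have k := wp1_of res' Ku.ukg m P.κ hk (Cf G P) _ (-((1 - ε) • h)) q.δ hL
    (neg_mem (Submodule.smul_mem _ _ hc)) dc ((res_smp l.can.ff P l.smp).congr (l.adj_prn p)).nef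
    (l.big.congr (l.adj_prn p)) (hor _ K G Δ ε P l) (rk _ K G Δ ε P l) fun v => by
      by_cases e : v = q
      · exact ⟨w, e ▸ t, by rw [e, Pl.δ_self, sub_self, zero_mul]; linarith⟩
      · simpa only [Pl.δ_ne e, sub_zero, one_mul] using
          tv _ K G Δ ε P l 0 h v hL p (Cv.on0 h v)
  have k1 := Cv.eff_nonneg hL (add_mem (Cv.cn_car hL) hc) ef
  have k2 := (Cv.big_iff hL hc).1 p.big
  rw [Cv.I1_add hL (Cv.cn_car hL) hc, Cv.I1_cn hL] at k1
  rw [Cv.I1_add hL (Cv.cn_car hL) dc, Cv.I1_cn hL, Cv.I1_δ, Cv.I1_neg, Cv.I1_smul] at k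
  have k3 := mul_pos (sub_pos.2 l.e1) k2
  obtain g | g := Nat.eq_zero_or_pos (pg (Cf G P) 1)
  · rw [g, Nat.cast_zero] at k k1
    nlinarith
  · have : (1 : ℝ) ≤ pg (Cf G P) 1 := by exact_mod_cast g
    linarith

end Vale.Agent.P287D.Tg
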