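import Vale.Agent.P287D.Tg.St
import Vale.Agent.P287D.Va.Des
import Vale.Agent.P287D.Cb.Mov
import Vale.Agent.P287D.Ba.Hy
import Vale.Agent.P287D.Gf.Rs

/-!
# P287D, block TG: a generic centre moves
-/

open Set

noncomputable section

namespace Vale.Agent.P287D.Tg

variable {K E : Type} [Field K] [Algebra ℂ K] [Field E] [Algebra ℂ E] {n m k : ℕ}
  {ρ : K →+* E} {N : BD K}

/-- the field of the pull back is algebraic over the image -/
theorem alg_of_mem (hE : FF E m) (ok : Ok ρ) (hN : Smp N) {x : E} (hx : x ∈ fld (pb ρ N)) :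
    IsAlgebraic (IntermediateField.adjoin ℂ (range ρ)) x := by
  obtain ⟨s, -, a⟩ := hN.exists_ampOn
  rw [← (ok.ampOn a).fld_eq, ok.pb_mx, mem_fld_mx hE] at hx
  have e : rts (im ρ s) ≤ IntermediateField.adjoin ℂ (range ρ) := rts_le_iff.2 fun f hf g hg => by
    obtain ⟨f, -, rfl⟩ := Pb.mem_im.1 hf
    obtain ⟨g, -, rfl⟩ := Pb.mem_im.1 hg
    exact IntermediateField.subset_adjoin _ _ ⟨f / g, map_div₀ _ _ _⟩
  exact hx.ringHom_of_comp_eq (IntermediateField.inclusion e).toRingHom (RingHom.id E)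
    (IntermediateField.inclusion_injective _) rfl

omit [Algebra ℂ K] in
theorem alc_of {L : IntermediateField ℂ E} {ψ : K →+* L} (e : ∀ f, (ψ f : E) = ρ f)
    (h : ∀ x ∈ L, IsAlgebraic (IntermediateField.adjoin ℂ (range ρ)) x) : Cb.Alc ψ := fun x => by
  have a := h x x.2
  have b : IntermediateField.adjoin ℂ (range ρ) =
      (IntermediateField.adjoin ℂ (range ψ)).map L.val := by
    rw [IntermediateField.adjoin_map, ← range_comp]
    exact congrArg _ (congrArg _ (funext fun f => (e f).symm))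
  rw [b] at a
  exact IntermediateField.isAlgebraic_adjoin_iff.1 ((alg_map_iff L.val).1 a)

/-- the canonical class of the image of a generic point, twisted by `N`, is effective -/
theorem xi {M : Type} [Field M] [Algebra ℂ M] {ψ : K →+* M} (hK : FF K n) (hM : FF M k)
    (hc : Cst ψ) (ha : Cb.Alc ψ) (h : 0 ≤ cn K n + N) :
    ∃ f : M, f ≠ 0 ∧ 0 ≤ cn M k + dv f + pb ψ N := by
  obtain ⟨f, f0, a, b⟩ := Cb.mov hK hM hc ha
  refine ⟨f, f0, fun Q => ?_⟩
  rcases hc.ok hK hM Q with t | ⟨R, l⟩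
  · simpa only [Pi.add_apply, Pi.zero_apply, t.pb, add_zero] using b Q t
  · have c := a Q R l
    have d : (1 : ℝ) ≤ Q.ord (ψ R.t) := by exact_mod_cast l.e_pos
    have e := h R
    simp only [Pi.add_apply, Pi.zero_apply, l.pb] at c e ⊢
    nlinarith

/-- **MOV** -/
theorem mov : MOV := by
  intro n K K' _ _ _ _ φ G G' u P k h t hL po
  have hκ := Gm.ffs.rsd n K' u.can'.ff P
  have hc : Cst φ := fun c => u.ext.cst _ (IntermediateField.algebraMap_mem _ c)
  have cρ : Cst (Gx.hr t) := Pb.hor_cst (Gx.hr_apply t) hc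
  have ok := cρ.ok u.can.ff hκ
  obtain ⟨f, -, e⟩ := u.eq
  have c : pb φ (-G) ∈ Car K' := (hc.ok u.can.ff u.can'.ff).car u.can.smp.car
  have e₁ : res P (-G') - pb (Gx.hr t) (-G) ∈ Prn P.κ := by
    rw [← hc.res_trv res' u.can.ff u.can'.ff t (Gx.hr_apply t) u.can.smp.car]
    refine res_congr u.can'.ff P c ?_
    rw [e, pb_neg]
    simpa using dv_mem_Prn f
  have e₂ : Cf G' P = fld (pb (Gx.hr t) (-G)) := fld_congr e₁
  have m : ∀ a, Gx.hr t a ∈ Cf G' P := fun a =>
    e₂ ▸ ok.mem_fld u.can.smp.eff (u.can.big.fld_eq ▸ IntermediateField.mem_top)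
  let ψ : K →+* Cf G' P := (Gx.hr t).codRestrict (Cf G' P) m
  have cψ : Cst ψ := fun c => (cρ c).imp fun d hd => Subtype.ext hd
  obtain ⟨g, -, hg⟩ := xi (N := -G) u.can.ff hL cψ
    (alc_of (ρ := Gx.hr t) (fun _ => rfl) fun x hx => alg_of_mem hκ ok u.can.smp (e₂ ▸ hx))
    (by simpa only [dsc, sub_eq_add_neg] using u.can.nn)
  have e₃ : pb ψ (-G) - h ∈ Prn (Cf G' P) := by
    rw [← pb_prn_iff hκ (cld_fld _), pb_sub, ← (hκ.ok_sub _).pb_comp]
    have := sub_mem po.prn e₁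
    rwa [sub_sub_sub_cancel_left] at this
  refine ⟨_, hg, ?_⟩
  have := add_mem (dv_mem_Prn g) e₃
  rwa [show dv g + (pb ψ (-G) - h) = cn _ k + dv g + pb ψ (-G) - (cn _ k + h) by abel] at this

end Vale.Agent.P287D.Tg
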