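import Vale.Agent.P287D.Tg.Add
import Vale.Agent.P287D.Iso.Can
import Vale.Agent.P287D.Gf.Five

/-!
# P287D, block TG: the row SB0
-/

open Set

noncomputable section

namespace Vale.Agent.P287D.Tg

theorem sb0 : SB0 := fun n K _ _ G Δ ε P l h hL p => by
  have hK := l.can.ff
  have t : Cf G P = ⊤ := Gx.eq_top (Bm.ff_κ hK P) hL (cld_fld _)
  have s : Semi (inc (Cf G P)) :=
    ⟨fun f => ⟨⟨f, t ▸ IntermediateField.mem_top⟩, rfl⟩, fun c => ⟨c, rfl⟩, fun c => ⟨c, rfl⟩⟩
  obtain ⟨M, m⟩ := (res_smp hK P l.smp).eff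
  obtain ⟨Z, hZ⟩ := s.pb_sur (M - dsc n (adj n P (G + Δ)))
  refine ⟨Z, ?_, fun w v a => ?_⟩
  · rw [← pb_prn_iff (Bm.ff_κ hK P) (cld_fld _), pb_sub, pb_sub, pb_neg, pb_smul, hZ]
    have e1 := (a1 n K hK P _ l.ccar).2.1
    have e2 : res P (G + Δ) + res P (ε • -G - Δ) = -((1 - ε) • res P (-G)) := by
      rw [← res_add hK P l.ccar l.smp.car, ← res_smul hK P _ l.can.smp.car,
        ← res_neg hK P (Submodule.smul_mem _ _ l.can.smp.car)]
      congr 1
      module
    have := sub_mem (add_mem (add_mem m.2 e1) (s.cn_prn n)) (Submodule.smul_mem _ (1 - ε) p.prn)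
    convert this using 1
    rw [dsc, eq_sub_of_add_eq e2]
    module
  · have e : w.ord (inc (Cf G P) v.t) = 1 := by
      rw [s.lies_iff.1 a, s.ord_pl, Pl.ord_t]
    have := congrFun hZ w
    rw [a.pb, Pi.sub_apply] at this
    have := m.1 w
    rw [Pi.zero_apply] at this
    rw [e] at *
    push_cast at *
    linarith

end Vale.Agent.P287D.Tg
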