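import Vale.Agent.P287D.Tg.St
import Vale.Agent.P287D.Sg.Cbn
import Vale.Agent.P287D.Ad.All
import Vale.Agent.P287D.Gf.Vp
import Vale.Agent.P287D.Gf.Des
import Vale.Agent.P287D.D2.Rul

/-!
# P287D, block TG: subadjunction to a centre of codimension two
-/

set_option linter.unusedVariables false

open Set

noncomputable section

namespace Vale.Agent.P287D.Tg

variable {K K' : Type} [Field K] [Algebra ℂ K] [Field K'] [Algebra ℂ K'] {n k : ℕ}
  {Λ Γ β γ : BD K} {P : Pl K} {s : Finset K} {L : IntermediateField ℂ K}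

/-- `β` is bounded by a member of an integral multiple of the system `s` -/
def Bd (s : Finset K) (β : BD K) : Prop := ∃ (m : ℕ) (u : K), u ≠ 0 ∧ β ≤ dv u + (m : ℝ) • mx s

theorem Bd.mono (h : Bd s β) (e : γ ≤ β) : Bd s γ :=
  let ⟨m, u, a, b⟩ := h
  ⟨m, u, a, e.trans b⟩

theorem Bd.zero : Bd s 0 := ⟨0, 1, one_ne_zero, by simp⟩

theorem Bd.add (h : Bd s β) (h' : Bd s γ) : Bd s (β + γ) :=
  let ⟨m, u, a, b⟩ := h
  let ⟨m', u', a', b'⟩ := h'
  ⟨m + m', u * u', mul_ne_zero a a', by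
    rw [dv_mul a a', Nat.cast_add, add_smul, add_add_add_comm]
    exact add_le_add b b'⟩

theorem Bd.sum {ι : Type*} (T : Finset ι) {b : ι → BD K} (h : ∀ i ∈ T, Bd s (b i)) :
    Bd s (∑ i ∈ T, b i) :=
  Finset.sum_induction _ _ (fun _ _ => Bd.add) Bd.zero h

theorem bd_dv (f : K) : Bd s (dv f) := by
  by_cases h : f = 0
  · simpa [h] using Bd.zero
  · exact ⟨0, f, h, by simp⟩

theorem bd_rts {x : K} (h : x ∈ rts s) : Bd s (pld x) := by
  induction h using IntermediateField.adjoin_induction with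
  | mem x hx =>
    obtain ⟨f, hf, g, hg, rfl⟩ := hx
    by_cases g0 : g = 0
    · rw [g0, div_zero, ← map_zero (algebraMap ℂ K), pld_const]
      exact .zero
    · exact ⟨1, g, g0, by
        simpa [add_comm] using pld_div_le (sec_of_mem hf) (sec_of_mem hg) g0⟩
  | algebraMap a => exact pld_const (K := K) a ▸ .zero
  | add x y _ _ a b => exact (a.add b).mono (pld_add x y)
  | inv x _ a => exact pld_inv x ▸ a.add (bd_dv x)
  | mul x y _ _ a b => exact (a.add b).mono (pld_mul x y)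

theorem bd_alg {x : K} (h : IsAlgebraic (rts s) x) : Bd s (pld x) := by
  obtain ⟨p, hp, e⟩ := h.isIntegral
  refine (Bd.sum p.support fun i _ => bd_rts (p.coeff i).2).mono
    (pld_le_of_monic (hp.map (algebraMap _ K)) (by rwa [Polynomial.eval_map])
      (Finset.sum_nonneg fun i _ => pld_nonneg _) fun i => ?_)
  rw [Polynomial.coeff_map]
  by_cases hi : i ∈ p.support
  · exact (sec_pld _).mono (Finset.single_le_sum (f := fun i => pld (p.coeff i : K))
      (fun i _ => pld_nonneg _) hi)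
  · rw [Polynomial.notMem_support_iff.1 hi, map_zero]
    exact .zero _

/-- a system of functions on `V (mx s)` is bounded -/
theorem bd_mx (hK : FF K n) {u : Finset K} (h : ∀ f ∈ u, f ∈ fld (mx s)) : Bd s (mx u) :=
  (Bd.sum u fun f hf => bd_alg ((mem_fld_mx hK).1 (h f hf))).mono (mx_le_sum u)

/-- a form on the generic fibre has bounded vertical poles -/
theorem exists_form {ψ : K →+* K'} (g : GFd k 1 L ψ) (p : pg K' 1 ≠ 0) :
    ∃ (f : K) (u : Finset K), f ≠ 0 ∧ (u : Set K) ⊆ L ∧ 0 ≤ dv f + cn K (k + 1) + mx u := by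
  obtain ⟨w, w0, hw⟩ := D2.exists_sec p
  obtain ⟨j, j0, e⟩ := g4 k 1 _ _ _ ψ g
  have a := (g3 k 1 _ _ _ ψ g).2.2.1 (cn K (k + 1)) (w * j)
    ((sec_add_dv j0).1 (.inr (by rwa [← e, add_comm])))
  obtain ⟨f, f0, hf⟩ : ∃ f : K, f ≠ 0 ∧ ∀ Q, Hor L Q → 0 ≤ (dv f + cn K (k + 1)) Q := by
    by_contra c
    rw [eq_empty_of_forall_notMem (s := {f | _}) fun f hf => c ⟨f, hf⟩, image_empty,
      Submodule.span_empty] at a
    exact mul_ne_zero w0 j0 a
  obtain ⟨t, -, b⟩ := exists_big g.fl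
  have c := (g.fk.ok_sub L).smp (smp_mx t)
  obtain ⟨v, Γ, T, -, -, d, -⟩ := Api.mod.ex k K g.fk ∅ {pb (inc L) (mx t)} finite_empty
    (finite_singleton _) (singleton_subset_iff.2 c.car)
  obtain ⟨u, u1, -, u2⟩ := g3b Api.mod Api.neg _ K L g.fk (dv f + Γ)
    (add_mem (smp_dv f).car T.hull.1.car) fun Q q => by
      rw [Pi.add_apply, T.hull.2 Q (Sg.on_hor g.fk g.fl (smp_mx t) b T.smp (d _ rfl) q)]
      exact hf Q q
  refine ⟨f, u, f0, u1, u2.trans (add_le_add (add_le_add le_rfl fun Q => ?_) le_rfl)⟩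
  by_cases o : On k (mx v) Q
  · exact (T.hull.2 Q o).le
  · exact sub_nonneg.1 (T.pos Q o).le

/-- **G0**: an exceptional divisor of a klt pair with a centre of codimension two is generically
a fibration in rational curves over the centre -/
theorem g0 (hK : FF K (k + 2)) (a : Smp Λ) (b : Big Λ) (d : Dsc Λ Γ) (e : Bdy (k + 1) Λ Γ)
    (l : -1 < dsc (k + 2) Γ P) {ψ : P.κ →+* K'} (g : GFd k 1 (fld (res P Λ)) ψ) :
    pg K' 1 = 0 := by
  by_contra p
  obtain ⟨f, u, f0, u1, u2⟩ := exists_form g p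
  obtain ⟨s, -, A⟩ := a.exists_ampOn
  have q : fld (mx (P.rs s)) = fld (res P Λ) := by
    rw [← res_mx hK]
    exact le_antisymm (res_dsc hK P A.1).fld_le (res_dsc hK P A.dsc').fld_le
  obtain ⟨m, v, v0, hv⟩ := bd_mx (s := P.rs s) g.fk fun f hf => q ▸ u1 hf
  refine mul_ne_zero f0 v0 (uni' (k + 1) K hK Λ Γ ((m : ℝ) • mx s) P a b d e (fun o => ?_) l
    (CarZ.nsmul (mx_mem_CarZ s) m) (A.1.smul m) _ (.inr ?_))
  · have r := (big_iff_dim g.fk (res_smp hK P a).eff).1 ((res'.on _ K hK Λ P a).1 o)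
    have t := trdeg_fld g.fk (res P Λ)
    rw [g.fl.trdeg, r] at t
    exact absurd (Nat.cast_injective t) (by omega)
  · rw [res_smul hK P _ (mx_mem_Car s), res_mx hK, dv_mul f0 v0]
    refine u2.trans ((add_le_add le_rfl hv).trans (le_of_eq ?_))
    abel

/-- on a fibration in rational curves there is a function with a simple pole at a given
horizontal place -/
theorem exists_pole {ψ : K →+* K'} (g : GFd k 1 L ψ) (p : pg K' 1 = 0) (h : Hor L P) :
    ∃ f, f ∉ L ∧ f ≠ 0 ∧ ∀ Q, Hor L Q → 0 ≤ (dv f + P.δ) Q := by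
  classical
  obtain ⟨-, b, c, -⟩ := g2 k 1 _ _ _ ψ g
  obtain ⟨O, l⟩ := c P h
  obtain ⟨t, t1, -, t2⟩ := Cv.exists_coord g.ff p O
  have a := (g3 k 1 _ _ _ ψ g).2.2.1 P.δ t ((t2 ▸ sec_of_mem (by simp) : Sec O.δ t).mono
    fun R => by
      by_cases r : R = O
      · rw [r, (b O P l).2.2.1, Pl.δ_self, Pl.δ_self]
      · rw [Pl.δ_ne r]
        exact g.pb_nonneg.2 (fun Q _ => P.δ_nonneg Q) R)
  by_contra! z
  obtain ⟨x, hx⟩ : t ∈ LinearMap.range (Algebra.linearMap ℂ K') := by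
    refine Submodule.span_le.2 ?_ a
    rintro _ ⟨f, ⟨f0, hf⟩, rfl⟩
    refine g.cst f (by_contra fun y => ?_)
    obtain ⟨Q, q, r⟩ := z f y f0
    exact (hf Q q).not_gt r
  exact t1 x hx.symm

/-- **SB1** -/
theorem sb1_of (rul : RUL) (hor : HOR) (rk : RK1) : SB1 := by
  rintro n K _ _ G Δ ε P l k h rfl hL po
  have hK := l.can.ff
  have hE := Gm.ff_κ P hK
  have cG : G ∈ Car K := by simpa using neg_mem l.can.smp.car
  obtain ⟨K', _, _, ψ, g⟩ := gen_ex _ _ hE _ (cld_fld (res P (-G)))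
  have g' : GFd k 1 (Cf G P) ψ := ⟨g, hE, hL⟩
  have p := g0 hK l.can.smp l.can.big (by simpa using (Dsc.refl l.can.smp).neg) l.can.bdy
    (lt_of_lt_of_le (by norm_num) (l.can.nn P)) g'
  have H := hor _ K G Δ ε P l
  refine (rul k _ (Cf G P) (adj (k + 1) P (G + Δ)) (res P (ε • -G - Δ))
    (-((1 - ε) • h)) ⟨hE, hL, cld_fld _, g.conic ((Cv.g0_iff g'.ff).1 p),
      res_smp hK P l.smp, ?_, fun w q => not_lt.1 fun c => ?_, fun w q => (H w q).le⟩).imp
    fun Z z => ⟨z.prn, z.ge⟩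
  · have a := (a1 _ K hK P _ (add_mem cG l.car)).2.1
    have b := res_add hK P (add_mem cG l.car) l.smp.car
    rw [show G + Δ + (ε • -G - Δ) = (-(1 - ε)) • -G by module,
      res_smul hK P _ l.can.smp.car] at b
    have c := add_mem a (Submodule.smul_mem _ (-(1 - ε)) po.prn)
    rw [smul_sub, b] at c
    refine cast (congrArg (· ∈ Prn P.κ) ?_) c
    rw [pb_neg, pb_smul]
    module
  · obtain ⟨f, f1, f0, f2⟩ := exists_pole g' p q
    refine f1 (rk _ K G Δ ε P l f fun v r => .inr ?_)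
    have a := f2 v r
    rw [Pi.add_apply, dv_apply] at a
    by_cases e : v = w
    · rw [e, Pl.δ_self] at a
      rw [e]
      linarith
    · rw [Pl.δ_ne e] at a
      linarith [H v r]

end Vale.Agent.P287D.Tg
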