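import Vale.Agent.P287D.Tg.St
import Vale.Agent.P287D.Wp.Sa

/-!
# P287D, block TG: the rows RK1 and TV
-/

noncomputable section

namespace Vale.Agent.P287D.Tg

theorem Lo.su {n : ℕ} {K : Type} [Field K] [Algebra ℂ K] {G Δ : BD K} {ε : ℝ} {P : Pl K}
    (l : Lo n G Δ ε P) : Wp.Su n (-G) (G + Δ) P :=
  ⟨l.can.ff, l.can.smp, l.can.big, ⟨ε - 1, by
    rw [show (ε - 1) • -G - (G + Δ) = ε • -G - Δ by module]; exact l.smp.nef⟩,
    fun R r => by
      rw [Pr.dsc_add]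
      exact sub_nonpos.2 ((l.can.bdy R r).trans (l.nn R)), l.lc⟩

theorem rk1 : RK1 := fun _ _ _ _ _ _ _ _ l _ hu => l.su.rk1 hu

theorem tv_of (hor : HOR) : TV := fun n K _ _ G Δ ε P l _ _ _ f p o =>
  l.su.tv rfl (hor n K G Δ ε P l) f p.smp p.big p.prn o

end Vale.Agent.P287D.Tg
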