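import Vale.Agent.P287D.Tg.Glue
import Vale.Agent.P287D.Tg.Add
import Vale.Agent.P287D.Tg.K1
import Vale.Agent.P287D.Tg.Sb0
import Vale.Agent.P287D.Tg.Sb1
import Vale.Agent.P287D.Tg.Tv
import Vale.Agent.P287D.Tg.Up
import Vale.Agent.P287D.Tg.Mov
import Vale.Agent.P287D.Tg.Dich
import Vale.Agent.P287D.Ti.One
import Vale.Agent.P287D.Sl.All
import Vale.Agent.P287D.Api.Fld

/-!
# P287D, block TG: the results
-/

namespace Vale.Agent.P287D.Tg

theorem tv : TV := tv_of hor

theorem klt : KLT :=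
  klt_of Api.fld Api.pb hor tv mov sb0 (sb1_of rul hor rk1) (k1_of rk1 tv) sl

theorem t1 : T1 := Ti.t1_of upx

theorem vol3 : Sc.VOL3 := vol3_of (vb_of upv add one klt t1 le_rfl)

theorem dich_all (t2 : T2) (pen : PEN) : Sc.DICH :=
  dich_of In.hy Api.neg (di0_of Api.fld upv upc add one klt t1 t2) pen

end Vale.Agent.P287D.Tg
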