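import Vale.Agent.P287D.Tg.St
import Vale.Agent.P287D.Ba.Res
import Vale.Agent.P287D.Va.Alg

/-!
# P287D, block TG: the glue
-/

noncomputable section

namespace Vale.Agent.P287D.Tg

theorem cd_le {n : ℕ} {K : Type} [Field K] [Algebra ℂ K] (hK : FF K (n + 1)) (Λ : BD K)
    (P : Pl K) : cd Λ P ≤ n := dim_le (Gm.ffs.rsd n K hK P) _

theorem klt_of (fl : FLD) (pb' : PB) (hor : HOR) (tv : TV) (mov : MOV) (sb0 : SB0)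
    (sb1 : SB1) (k1 : K1) (sl : SL) : KLT := by
  obtain ⟨e, e0, sl⟩ := sl
  refine ⟨min e (1 / 3), lt_min e0 (by norm_num),
    fun n K K' _ _ _ _ φ G G' u Δ ε P hn l t he hc => ?_⟩
  have hκ := Gm.ffs.rsd n K' l.can.ff P
  have hL : FF (Cf G' P) (cd (-G') P) := fl.ff n _ hκ _
  have s : Smp (res P (-G')) := res_smp l.can.ff P l.can.smp
  obtain ⟨h, h1, h2, h3⟩ := fl.down n _ hκ _ s
  have po : Po G' P h := ⟨h1, h2, h3⟩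
  have hor := hor n K' G' Δ ε P l
  have li : ∀ w, Hor (Cf G' P) w ∨ ∃ v, Lies (inc (Cf G' P)) w v := fun w =>
    (pb'.lies _ n _ _ (inc (Cf G' P)) hL hκ (fun _ => rfl) w).imp_left fun a f hf => a ⟨f, hf⟩
  have mov := mov n K K' φ G G' u P _ h t hL po
  generalize cd (-G') P = k at hc hL mov
  obtain rfl | rfl | rfl : k = 0 ∨ k = 1 ∨ k = 2 := by omega
  · intro w
    refine (li w).elim (hor w) fun ⟨v, _⟩ => absurd (v.dvl.trans (Gm.ffs.trdeg 0 _ hL)) ?_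
    simp
  · exact k1 n K' G' Δ ε P l h (by linarith [he.trans (min_le_right _ _)]) hL po mov
  · obtain ⟨m, hm, hm'⟩ := Gm.ffs.sub n _ hκ (Cf G' P)
    have := Gm.ffs.uniq 2 _ hL m hm'
    obtain ⟨Z, z⟩ : ∃ Z, Zd n 2 (Cf G' P) (adj n P (G' + Δ)) ε h Z := by
      obtain rfl | rfl : n = 2 ∨ n = 3 := by omega
      · exact sb0 _ K' G' Δ ε P l h hL po
      · exact sb1 _ K' G' Δ ε P l 2 h rfl hL po
    have sl := sl _ h Z ε hL h1 h2 mov l.e0 (he.trans (min_le_left _ _)) z.prn fun v hv => by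
      obtain ⟨w, a, b⟩ := tv n K' G' Δ ε P l 1 h v hL po hv
      have c := z.ge w v a
      have d : (0 : ℝ) < w.ord (inc (Cf G' P) v.t) := by exact_mod_cast a.e_pos
      exact le_of_mul_le_mul_left (by linarith) d
    intro w
    refine (li w).elim (hor w) fun ⟨v, a⟩ => ?_
    have c := z.ge w v a
    have d : (0 : ℝ) < w.ord (inc (Cf G' P) v.t) := by exact_mod_cast a.e_pos
    nlinarith [sl v]

theorem vb_of (upv : UPV) (add : ADD) (one : ONE) (klt : KLT) (t1 : T1) {n : ℕ}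
    (hn : n ≤ 2) : VB n := by
  obtain ⟨e, e0, e1, c⟩ := core upv add one klt
  obtain ⟨v, t1⟩ := t1 n (e / 2) (half_pos e0) (by linarith)
  refine ⟨v, fun K _ _ G g => le_of_not_gt fun h => ?_⟩
  obtain ⟨K₁, _, _, φ₁, G₁, Δ₁, P₁, u₁, l₁, -⟩ := t1 K G g h
  obtain ⟨K₂, _, _, φ₂, G₂, Δ₂, P₂, u₂, l₂, t₂⟩ := t1 K₁ G₁ u₁.can'
    (by rwa [(upv n K K₁ φ₁ G G₁ u₁).1])
  exact c n K₁ K₂ φ₂ G₁ G₂ u₂ Δ₁ _ P₁ Δ₂ _ P₂ (by omega) l₁ l₂ t₂ (add_halves e).le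
    ((cd_le l₂.can.ff _ _).trans hn)

theorem di0_of (fl : FLD) (upv : UPV) (upc : UPC) (add : ADD) (one : ONE) (klt : KLT) (t1 : T1)
    (t2 : T2) : DI0 := by
  obtain ⟨e, e0, e1, c⟩ := core upv add one klt
  obtain ⟨v, t1⟩ := t1 3 (e / 3) (by linarith) (by linarith)
  obtain ⟨v', t2⟩ := t2 (e / 3) (by linarith) (by linarith)
  refine ⟨max v v', fun K _ _ G g => or_iff_not_imp_left.2 fun h => ?_⟩
  have h := (le_max_left _ _).trans_lt (lt_of_not_ge h)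
  obtain ⟨K₁, _, _, φ₁, G₁, Δ₁, P₁, u₁, l₁, -⟩ := t1 K G g h
  obtain ⟨K₂, _, _, φ₂, G₂, Δ₂, P₂, u₂, l₂, t₂⟩ := t1 K₁ G₁ u₁.can'
    (by rwa [(upv 3 K K₁ φ₁ G G₁ u₁).1])
  have k : ∀ (K₃ : Type) [Field K₃] [Algebra ℂ K₃] (ψ : K₁ →+* K₃) (G₃ Δ₃ : BD K₃) (P₃ : Pl K₃)
      (ε : ℝ), Up 3 ψ G₁ G₃ → Lo 3 G₃ Δ₃ ε P₃ → Trv ψ P₃ → ε ≤ 2 * (e / 3) → On 3 (-G₃) P₃ := by
    intro K₃ _ _ ψ G₃ Δ₃ P₃ ε u l t he
    have a := c 3 K₁ K₃ ψ G₁ G₃ u Δ₁ _ P₁ Δ₃ _ P₃ le_rfl l₁ l t (by linarith)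
    refine (fl.cen 3 K₃ l.can.ff _ P₃ P₃ l.can.smp).1.2 ?_
    have := cd_le l.can.ff (-G₃) P₃
    omega
  have o := k K₂ φ₂ G₂ Δ₂ P₂ _ u₂ l₂ t₂ (by linarith)
  refine ⟨K₂, inferInstance, inferInstance, φ₂.comp φ₁, G₂, P₂,
    upc 3 K K₁ φ₁ G G₁ u₁ K₂ φ₂ G₂ u₂, fun f => t₂ _, o, le_of_not_gt fun h' => ?_⟩
  obtain ⟨K₃, _, _, ψ, G₃, Δ₃, P₃, u, l, t, b⟩ := t2 K₁ K₂ φ₂ G₁ G₂ Δ₂ P₂ u₂ l₂ t₂ o
    ((le_max_right _ _).trans_lt h')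
  exact b (k K₃ ψ G₃ Δ₃ P₃ _ u l t le_rfl)

theorem vol3_of (h : VB 2) : Sc.VOL3 :=
  let ⟨v, h⟩ := h
  ⟨v, fun K _ _ a G b c d e => h K G ⟨a, b, c, d, e⟩⟩

end Vale.Agent.P287D.Tg
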