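import Vale.Agent.P287D.Tg.St
import Vale.Agent.P287D.Va.Des
import Vale.Agent.P287D.Cb.Mov
import Vale.Agent.P287D.Pb.Res
import Vale.Agent.P287D.Ba.Hy

/-!
# P287D, block TG: a generic centre moves
-/

open Set

noncomputable section

namespace Vale.Agent.P287D.Tg

open Pb Gx

variable {K E : Type} [Field K] [Algebra ℂ K] [Field E] [Algebra ℂ E] {n m k : ℕ}

/-- the image of a canonical Fano variety under a map which preserves the constants -/
theorem mov_img (hK : FF K n) (hE : FF E m) {ρ : K →+* E} (hc : Cst ρ) {G : BD K} (big : Big (-G))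
    (nn : 0 ≤ dsc n G) {L : IntermediateField ℂ E} (e : fld (pb ρ (-G)) = L) (hL : FF L k)
    {h : BD L} (p : pb ρ (-G) - pb (inc L) h ∈ Prn E) : Eff (cn L k + h) := by
  have m : ∀ a, ρ a ∈ L := fun a =>
    e ▸ (hc.ok hK hE).mem_fld big.eff (big.fld_eq ▸ IntermediateField.mem_top)
  let ψ : K →+* L := ρ.codRestrict L m
  have c : Cst ψ := fun a => let ⟨d, hd⟩ := hc a; ⟨d, Subtype.ext hd⟩
  have al : Cb.Alc ψ := fun x => by
    obtain ⟨M, a, b, d⟩ := Gm.exists_cld (IntermediateField.adjoin ℂ (range ρ))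
    have k := d x (fld_le_of_hor hE b (zero_mem _) (fun w hw => (Trv.pb (fun f =>
      hw _ (a (IntermediateField.subset_adjoin _ _ ⟨f, rfl⟩))) _).le) (e.ge x.2))
    rw [← IntermediateField.isAlgebraic_adjoin_iff, ← alg_map_iff L.val,
      IntermediateField.adjoin_map, ← range_comp]
    exact k
  obtain ⟨g, -, a, b⟩ := Cb.mov hK hL c al
  have q : h - pb ψ (-G) ∈ Prn L := by
    rw [← pb_prn_iff hE (e ▸ cld_fld _), pb_sub, ← (hE.ok_sub L).pb_comp, ← neg_sub]
    exact neg_mem p
  refine (Eff.of_nonneg (β := cn L k + dv g + pb ψ (-G)) fun w => ?_).congr ?_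
  · rcases c.ok hK hL w with t | ⟨Q, l⟩
    · simpa [t.pb] using b w t
    · have h1 := a w Q l
      have h2 := nn Q
      have h3 : (1 : ℝ) ≤ w.ord (ψ Q.t) := by exact_mod_cast l.e_pos
      rw [Pi.add_apply, l.pb]
      simp only [dsc, Pi.sub_apply, Pi.zero_apply, Pi.neg_apply] at h2 ⊢
      nlinarith
  · rw [show cn L k + h - (cn L k + dv g + pb ψ (-G)) = h - pb ψ (-G) - dv g by abel]
    exact sub_mem q (dv_mem_Prn g)

/-- **MOV** -/
theorem mov' : MOV := fun n K K' _ _ _ _ φ G G' u P k h t hL p => by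
  obtain ⟨f, -, rfl⟩ := u.eq
  have c : Cst φ := fun a => u.ext.cst _ (IntermediateField.algebraMap_mem _ a)
  have hK := u.can.ff
  have hK' := u.can'.ff
  have e : res P (-(pb φ G - dv f)) - pb (hr t) (-G) ∈ Prn P.κ := by
    rw [← c.res_trv res' hK hK' t (hr_apply t) u.can.smp.car]
    refine res_congr hK' P ((c.ok hK hK').car u.can.smp.car) ?_
    rw [pb_neg, show -(pb φ G - dv f) - -pb φ G = dv f by abel]
    exact dv_mem_Prn f
  refine mov_img hK (Gm.ff_κ P hK') (hor_cst (hr_apply t) c) u.can.big u.can.nn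
    (fld_congr e).symm hL ?_
  simpa using sub_mem p.prn e

end Vale.Agent.P287D.Tg
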