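import Vale.Agent.P287D.Ti.Trv
import Vale.Agent.P287D.Tg.Add
import Vale.Agent.P287D.Wp.Lf

/-!
# P287D, block TG: cutting a divisorial tiger
-/

open Set

noncomputable section

namespace Vale.Agent.P287D.Tg

/-- **LFX**: an extension of the constants with a generic point of a given prime divisor -/
def LFX : Prop := ∀ (n : ℕ) (K : Type) [Field K] [Algebra ℂ K] (P : Pl K), FF K (n + 2) →
  ∃ (K₁ : Type) (_ : Field K₁) (_ : Algebra ℂ K₁) (ψ : K →+* K₁) (P₁ : Pl K₁) (l : Lies ψ P₁ P)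
    (x : Pl P₁.κ), Ext ⊥ ψ ∧ FF K₁ (n + 2) ∧ (∀ P₂, Lies ψ P₂ P → P₂ = P₁) ∧ Ext ⊥ l.κ ∧
      GenPt n l.κ x

theorem t2_of (lf : LFX) : T2 := fun ε e0 e1 => ⟨(3 / (ε / 4)) ^ (2 + 1), by
  intro K K' _ _ _ _ φ G G' Δ P u l t o hv
  have hK := l.can.ff
  obtain ⟨K₁, _, _, ψ, P₁, li, x, h, hK₁, uq, h', p⟩ := lf 2 K' P hK
  obtain ⟨f, tf, u₁⟩ := upx 3 K' K₁ ψ G' l.can h hK₁
  generalize e : pb ψ G' - dv f = G₁ at u₁
  have c := u₁.can'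
  have hκ := Gm.ffs.rsd 3 K' hK P
  have hκ₁ := Gm.ffs.rsd 3 K₁ hK₁ P₁
  have hc : Cst ψ := fun a => h.cst _ (IntermediateField.algebraMap_mem _ a)
  have ok' := h'.ok hκ₁
  have rp : ∀ {β : BD K'} {β₁ : BD K₁}, β ∈ Car K' → β₁ - pb ψ β ∈ Prn K₁ →
      res P₁ β₁ - pb li.κ (res P β) ∈ Prn P₁.κ := fun a b => by
    simpa using add_mem (res_congr hK₁ P₁ (u₁.ok.car a) b)
      (hc.res_lies res' hK hK₁ li li.isRd a).1
  have r1 := rp l.can.smp.car u₁.prn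
  have b0 := (res'.on 3 K' hK _ P l.can.smp).1 o
  have b1 : Big (res P₁ (-G₁)) := (Gm.big_pb ok' h'.gen b0).congr r1
  have s1 : Smp (ε • -G₁ - pb ψ Δ) := (u₁.ok.smp l.smp).congr (u₁.sub_prn ε Δ)
  have d0 := pb_nonneg ψ l.nn
  have lc : dsc 4 (G₁ + pb ψ Δ) P₁ = -1 := by
    obtain ⟨R, a, b⟩ := (upv 3 K' K₁ ψ G' G₁ u₁).2 P
    exact uq R a ▸ (b Δ).trans l.lc
  have nf : Nef ((ε - 1) • -G₁ - (G₁ + pb ψ Δ)) := by
    rw [show (ε - 1) • -G₁ - (G₁ + pb ψ Δ) = ε • -G₁ - pb ψ Δ by module]; exact s1.nef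
  have bd : Bdy 3 (-G₁) (G₁ + pb ψ Δ) := fun R r => by
    rw [Pr.dsc_add]
    exact sub_nonpos.2 ((c.bdy R r).trans (d0 R))
  have cΘ := Ae.car_of_nef c.smp nf
  have e4 : 0 < ε / 4 := by positivity
  obtain ⟨F, r, k⟩ := p.mult _ (res_smp hK P l.can.smp).nef _ (by positivity) hv
  obtain ⟨D, x1, x2, x3⟩ := Wp.Su.lift ⟨hK₁, c.smp, c.big, ⟨_, nf⟩, bd, lc⟩
    (fun w hw => (P297Z.Pl.ring_ne_top w.toPlace (eq_top_iff.2 fun a _ =>
      hw a (b1.fld_eq ▸ trivial))).elim) (c.smp.smul e4.le) ((Dsc.refl c.smp).smul _)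
    (res_smul hK₁ P₁ _ c.smp.car ▸ (r.congr r1).smul e4.le) e4
  rw [← add_smul] at x1
  obtain ⟨g, tg⟩ := exists_tr h' hκ hκ₁
  have z := Wp.genx hκ₁ ok' b0 (res_smp hK₁ P₁ c.smp) b1 r1
    (Z := adj 3 P₁ (G₁ + pb ψ Δ) - pb li.κ (res P (G' + Δ)) + dv g)
    (.of_prn (res_smp hK₁ P₁ c.smp) (add_mem (by
      simpa using add_mem (a1 3 K₁ hK₁ P₁ _ cΘ).2.1 (rp l.ccar (β₁ := G₁ + pb ψ Δ) (by
        rw [pb_add, add_sub_add_right_eq_sub, ← e, sub_sub_cancel_left]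
        exact neg_mem (dv_mem_Prn f)))) (dv_mem_Prn g))) (fun Q a b => by
      have i := a3g 2 K₁ hK₁ _ P₁ c.smp c.big ((res'.on 3 K₁ hK₁ _ P₁ c.smp).2 b1) _ _ nf bd lc Q a
      have j := tg.triv Q b
      simp only [dsc, Pi.add_apply, Pi.sub_apply, b.pb] at i j ⊢
      linarith) (x := x) p.triv
  obtain ⟨Δ', P', l', q, o'⟩ := Ti.cut c (add_pos e4 e4).le e0.le (ε' := 2 * ε) (by linarith) e1 d0
    s1 x1.1 (.of_prn (neg_sub D _ ▸ neg_mem x1.2)) x2 lc (Q := x) (fun Q cu => by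
      obtain ⟨R, ⟨ne, -⟩, -, -, a, b⟩ := a2 3 K₁ hK₁ P₁ Q {G₁ + pb ψ Δ} (-G₁) 0
        (finite_singleton _) (singleton_subset_iff.2 cΘ) c.smp.car
      have b := b _ rfl
      rw [lc, neg_add_cancel, zero_mul, add_zero] at b
      rw [b]
      rcases u₁.ok R with i | ⟨R₀, i⟩
      · have := tf.triv R i
        simp only [dsc, ← e, Pi.add_apply, Pi.sub_apply, i.pb] at this ⊢
        linarith
      obtain ⟨M, m1, m2, m3⟩ := (Loq.sep_of balg Gm.ffs res' 3 K' hK _ P R₀ l.can.smp l.can.big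
        o).1 fun j => ne (uq R (j ▸ i))
      have := Ti.cq_zero hc hK hK₁ li li.isRd l.can.smp.car u₁.prn p.triv
        (fun G r z y => cu G r z (y.trans_le (a G r z).1)) m1 m3
      rw [i.pb] at this
      exact absurd this (mul_pos (Int.cast_pos.2 i.e_pos) m2).ne') (fun _ _ _ => id) (by
      have i := p.dsc g tg
      have j := x3 x
      have := (div_le_iff₀' e4).1 k
      simp only [dsc, Pi.add_apply, Pi.sub_apply, Trv.pb p.triv, Pi.smul_apply, smul_eq_mul]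
        at i j z ⊢
      push_cast at i
      linarith)
  exact ⟨K₁, _, _, ψ.comp φ, G₁, Δ', P', upc 3 K K' φ G G' u K₁ ψ G₁ u₁, l',
    Ti.cq_trv hc hK hK₁ li li.isRd l.can.smp.car u₁.prn p.triv u.ok u.can.big u.prn t q, o'⟩⟩

end Vale.Agent.P287D.Tg
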